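import Mathlib.Data.Fintype.Card
import Mathlib.Data.Fintype.EquivFin
import Mathlib.Data.Finset.Card
import Mathlib.Tactic

/-!
# P052: the finite core (helper387)

A family `Fc` of 4-subsets (facets) of `Fin 10` such that
* `X1` two facets always meet,
* `X2` if `t + a`, `t + b` are facets, `a ≠ b`, `o ∈ t`, then no facet contains `{a, b, o}`,
* `X3` if `t + o` is a facet, then `t + p` is a facet for some `p ≠ o`,
is empty.
-/

namespace Vale.Agent.P052.R2.H387

open Finset

/-- The configuration forbidden by `X2`, as a decidable predicate. -/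
def Bad (F₁ F₂ C : Finset (Fin 10)) : Prop :=
  ∃ a b o : Fin 10, a ≠ b ∧ a ∉ F₂ ∧ b ∉ F₁ ∧ a ∈ F₁ ∧ b ∈ F₂ ∧
    F₁.erase a = F₂.erase b ∧ o ∈ F₁.erase a ∧ a ∈ C ∧ b ∈ C ∧ o ∈ C

instance (F₁ F₂ C : Finset (Fin 10)) : Decidable (Bad F₁ F₂ C) := by
  unfold Bad; infer_instance

theorem fin10_cases (p : Fin 10) : p = 0 ∨ p = 1 ∨ p = 2 ∨ p = 3 ∨ p = 4 ∨ p = 5 ∨ p = 6 ∨
    p = 7 ∨ p = 8 ∨ p = 9 := by
  revert p; decide

/-- The labelled case. -/
theorem labelled (G : Finset (Fin 10) → Prop)
    (N : ∀ F₁ F₂ C : Finset (Fin 10), Bad F₁ F₂ C → G F₁ → G F₂ → G C → False)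
    (D : ∀ F₁ F₂ : Finset (Fin 10), Disjoint F₁ F₂ → G F₁ → G F₂ → False)
    (W : ∀ (t : Finset (Fin 10)) (o : Fin 10), o ∉ t → G (insert o t) →
      ∃ p, p ∉ t ∧ p ≠ o ∧ G (insert p t))
    (hA : G {0, 1, 2, 3}) (h0 : G {1, 2, 3, 4}) (h1 : G {0, 2, 3, 5}) (h2 : G {0, 1, 3, 6})
    (h3 : G {0, 1, 2, 7}) : False := by
  obtain ⟨p, hpt, hpo, hp⟩ := W {2, 3, 4} 1 (by decide) (by
      have e : (insert 1 {2, 3, 4} : Finset (Fin 10)) = {1, 2, 3, 4} := by decide
      rw [e]; exact h0)
  rcases fin10_cases p with rfl | rfl | rfl | rfl | rfl | rfl | rfl | rfl | rfl | rfl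
  · exact N _ _ _ (by decide) hA h0 hp
  · exact absurd rfl hpo
  · exact absurd hpt (by decide)
  · exact absurd hpt (by decide)
  · exact absurd hpt (by decide)
  · have k5 : G {2, 3, 4, 5} := by
      have e : (insert 5 {2, 3, 4} : Finset (Fin 10)) = {2, 3, 4, 5} := by decide
      rw [← e]; exact hp
    clear hpt hpo hp
    obtain ⟨p, hpt, hpo, hp⟩ := W {3, 4, 5} 2 (by decide) (by
        have e : (insert 2 {3, 4, 5} : Finset (Fin 10)) = {2, 3, 4, 5} := by decide
        rw [e]; exact k5)
    rcases fin10_cases p with rfl | rfl | rfl | rfl | rfl | rfl | rfl | rfl | rfl | rfl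
    · exact N _ _ _ (by decide) hA h0 hp
    · exact N _ _ _ (by decide) hA h1 hp
    · exact absurd rfl hpo
    · exact absurd hpt (by decide)
    · exact absurd hpt (by decide)
    · exact absurd hpt (by decide)
    · exact D _ _ (by decide) hp h3
    · have k6 : G {3, 4, 5, 7} := by
        have e : (insert 7 {3, 4, 5} : Finset (Fin 10)) = {3, 4, 5, 7} := by decide
        rw [← e]; exact hp
      clear hpt hpo hp
      obtain ⟨p, hpt, hpo, hp⟩ := W {4, 5, 7} 3 (by decide) (by
          have e : (insert 3 {4, 5, 7} : Finset (Fin 10)) = {3, 4, 5, 7} := by decide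
          rw [e]; exact k6)
      rcases fin10_cases p with rfl | rfl | rfl | rfl | rfl | rfl | rfl | rfl | rfl | rfl
      · exact N _ _ _ (by decide) h1 k5 hp
      · exact N _ _ _ (by decide) h0 k5 hp
      · exact D _ _ (by decide) hp h2
      · exact absurd rfl hpo
      · exact absurd hpt (by decide)
      · exact absurd hpt (by decide)
      · exact D _ _ (by decide) hp hA
      · exact absurd hpt (by decide)
      · exact D _ _ (by decide) hp hA
      · exact D _ _ (by decide) hp hA
    · exact D _ _ (by decide) hp h3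
    · exact D _ _ (by decide) hp h3
  · exact N _ _ _ (by decide) hA h2 hp
  · exact N _ _ _ (by decide) hA h3 hp
  · have k5 : G {2, 3, 4, 8} := by
      have e : (insert 8 {2, 3, 4} : Finset (Fin 10)) = {2, 3, 4, 8} := by decide
      rw [← e]; exact hp
    clear hpt hpo hp
    obtain ⟨p, hpt, hpo, hp⟩ := W {1, 3, 6} 0 (by decide) (by
        have e : (insert 0 {1, 3, 6} : Finset (Fin 10)) = {0, 1, 3, 6} := by decide
        rw [e]; exact h2)
    rcases fin10_cases p with rfl | rfl | rfl | rfl | rfl | rfl | rfl | rfl | rfl | rfl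
    · exact absurd rfl hpo
    · exact absurd hpt (by decide)
    · exact N _ _ _ (by decide) hA h2 hp
    · exact absurd hpt (by decide)
    · have k6 : G {1, 3, 4, 6} := by
        have e : (insert 4 {1, 3, 6} : Finset (Fin 10)) = {1, 3, 4, 6} := by decide
        rw [← e]; exact hp
      clear hpt hpo hp
      obtain ⟨p, hpt, hpo, hp⟩ := W {0, 1, 6} 3 (by decide) (by
          have e : (insert 3 {0, 1, 6} : Finset (Fin 10)) = {0, 1, 3, 6} := by decide
          rw [e]; exact h2)
      rcases fin10_cases p with rfl | rfl | rfl | rfl | rfl | rfl | rfl | rfl | rfl | rfl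
      · exact absurd hpt (by decide)
      · exact absurd hpt (by decide)
      · exact N _ _ _ (by decide) hA h2 hp
      · exact absurd rfl hpo
      · exact N _ _ _ (by decide) hA h0 hp
      · exact D _ _ (by decide) hp k5
      · exact absurd hpt (by decide)
      · exact D _ _ (by decide) hp k5
      · have k7 : G {0, 1, 6, 8} := by
          have e : (insert 8 {0, 1, 6} : Finset (Fin 10)) = {0, 1, 6, 8} := by decide
          rw [← e]; exact hp
        clear hpt hpo hp
        obtain ⟨p, hpt, hpo, hp⟩ := W {2, 4, 8} 3 (by decide) (by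
            have e : (insert 3 {2, 4, 8} : Finset (Fin 10)) = {2, 3, 4, 8} := by decide
            rw [e]; exact k5)
        rcases fin10_cases p with rfl | rfl | rfl | rfl | rfl | rfl | rfl | rfl | rfl | rfl
        · exact N _ _ _ (by decide) hA h0 hp
        · exact N _ _ _ (by decide) h0 k5 hp
        · exact absurd hpt (by decide)
        · exact absurd rfl hpo
        · exact absurd hpt (by decide)
        · exact D _ _ (by decide) hp h2
        · have k8 : G {2, 4, 6, 8} := by
            have e : (insert 6 {2, 4, 8} : Finset (Fin 10)) = {2, 4, 6, 8} := by decide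
            rw [← e]; exact hp
          clear hpt hpo hp
          obtain ⟨p, hpt, hpo, hp⟩ := W {4, 6, 8} 2 (by decide) (by
              have e : (insert 2 {4, 6, 8} : Finset (Fin 10)) = {2, 4, 6, 8} := by decide
              rw [e]; exact k8)
          rcases fin10_cases p with rfl | rfl | rfl | rfl | rfl | rfl | rfl | rfl | rfl | rfl
          · exact N _ _ _ (by decide) h2 k6 hp
          · exact D _ _ (by decide) hp h1
          · exact absurd rfl hpo
          · exact D _ _ (by decide) hp h3
          · exact absurd hpt (by decide)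
          · exact D _ _ (by decide) hp hA
          · exact absurd hpt (by decide)
          · exact D _ _ (by decide) hp hA
          · exact absurd hpt (by decide)
          · exact D _ _ (by decide) hp hA
        · exact D _ _ (by decide) hp h2
        · exact absurd hpt (by decide)
        · exact D _ _ (by decide) hp h2
      · exact D _ _ (by decide) hp k5
    · exact N _ _ _ (by decide) hA h1 hp
    · exact absurd hpt (by decide)
    · exact N _ _ _ (by decide) hA h3 hp
    · exact N _ _ _ (by decide) h0 k5 hp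
    · have k6 : G {1, 3, 6, 9} := by
        have e : (insert 9 {1, 3, 6} : Finset (Fin 10)) = {1, 3, 6, 9} := by decide
        rw [← e]; exact hp
      clear hpt hpo hp
      obtain ⟨p, hpt, hpo, hp⟩ := W {1, 6, 9} 3 (by decide) (by
          have e : (insert 3 {1, 6, 9} : Finset (Fin 10)) = {1, 3, 6, 9} := by decide
          rw [e]; exact k6)
      rcases fin10_cases p with rfl | rfl | rfl | rfl | rfl | rfl | rfl | rfl | rfl | rfl
      · exact D _ _ (by decide) hp k5
      · exact absurd hpt (by decide)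
      · exact N _ _ _ (by decide) hA h2 hp
      · exact absurd rfl hpo
      · exact D _ _ (by decide) hp h1
      · exact D _ _ (by decide) hp k5
      · exact absurd hpt (by decide)
      · exact D _ _ (by decide) hp h1
      · exact D _ _ (by decide) hp h1
      · exact absurd hpt (by decide)
  · have k5 : G {2, 3, 4, 9} := by
      have e : (insert 9 {2, 3, 4} : Finset (Fin 10)) = {2, 3, 4, 9} := by decide
      rw [← e]; exact hp
    clear hpt hpo hp
    obtain ⟨p, hpt, hpo, hp⟩ := W {1, 3, 6} 0 (by decide) (by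
        have e : (insert 0 {1, 3, 6} : Finset (Fin 10)) = {0, 1, 3, 6} := by decide
        rw [e]; exact h2)
    rcases fin10_cases p with rfl | rfl | rfl | rfl | rfl | rfl | rfl | rfl | rfl | rfl
    · exact absurd rfl hpo
    · exact absurd hpt (by decide)
    · exact N _ _ _ (by decide) hA h2 hp
    · exact absurd hpt (by decide)
    · have k6 : G {1, 3, 4, 6} := by
        have e : (insert 4 {1, 3, 6} : Finset (Fin 10)) = {1, 3, 4, 6} := by decide
        rw [← e]; exact hp
      clear hpt hpo hp
      obtain ⟨p, hpt, hpo, hp⟩ := W {0, 1, 6} 3 (by decide) (by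
          have e : (insert 3 {0, 1, 6} : Finset (Fin 10)) = {0, 1, 3, 6} := by decide
          rw [e]; exact h2)
      rcases fin10_cases p with rfl | rfl | rfl | rfl | rfl | rfl | rfl | rfl | rfl | rfl
      · exact absurd hpt (by decide)
      · exact absurd hpt (by decide)
      · exact N _ _ _ (by decide) hA h2 hp
      · exact absurd rfl hpo
      · exact N _ _ _ (by decide) hA h0 hp
      · exact D _ _ (by decide) hp k5
      · exact absurd hpt (by decide)
      · exact D _ _ (by decide) hp k5
      · exact D _ _ (by decide) hp k5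
      · have k7 : G {0, 1, 6, 9} := by
          have e : (insert 9 {0, 1, 6} : Finset (Fin 10)) = {0, 1, 6, 9} := by decide
          rw [← e]; exact hp
        clear hpt hpo hp
        obtain ⟨p, hpt, hpo, hp⟩ := W {2, 4, 9} 3 (by decide) (by
            have e : (insert 3 {2, 4, 9} : Finset (Fin 10)) = {2, 3, 4, 9} := by decide
            rw [e]; exact k5)
        rcases fin10_cases p with rfl | rfl | rfl | rfl | rfl | rfl | rfl | rfl | rfl | rfl
        · exact N _ _ _ (by decide) hA h0 hp
        · exact N _ _ _ (by decide) h0 k5 hp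
        · exact absurd hpt (by decide)
        · exact absurd rfl hpo
        · exact absurd hpt (by decide)
        · exact D _ _ (by decide) hp h2
        · have k8 : G {2, 4, 6, 9} := by
            have e : (insert 6 {2, 4, 9} : Finset (Fin 10)) = {2, 4, 6, 9} := by decide
            rw [← e]; exact hp
          clear hpt hpo hp
          obtain ⟨p, hpt, hpo, hp⟩ := W {4, 6, 9} 2 (by decide) (by
              have e : (insert 2 {4, 6, 9} : Finset (Fin 10)) = {2, 4, 6, 9} := by decide
              rw [e]; exact k8)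
          rcases fin10_cases p with rfl | rfl | rfl | rfl | rfl | rfl | rfl | rfl | rfl | rfl
          · exact N _ _ _ (by decide) h2 k6 hp
          · exact D _ _ (by decide) hp h1
          · exact absurd rfl hpo
          · exact D _ _ (by decide) hp h3
          · exact absurd hpt (by decide)
          · exact D _ _ (by decide) hp hA
          · exact absurd hpt (by decide)
          · exact D _ _ (by decide) hp hA
          · exact D _ _ (by decide) hp hA
          · exact absurd hpt (by decide)
        · exact D _ _ (by decide) hp h2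
        · exact D _ _ (by decide) hp h2
        · exact absurd hpt (by decide)
    · exact N _ _ _ (by decide) hA h1 hp
    · exact absurd hpt (by decide)
    · exact N _ _ _ (by decide) hA h3 hp
    · have k6 : G {1, 3, 6, 8} := by
        have e : (insert 8 {1, 3, 6} : Finset (Fin 10)) = {1, 3, 6, 8} := by decide
        rw [← e]; exact hp
      clear hpt hpo hp
      obtain ⟨p, hpt, hpo, hp⟩ := W {1, 6, 8} 3 (by decide) (by
          have e : (insert 3 {1, 6, 8} : Finset (Fin 10)) = {1, 3, 6, 8} := by decide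
          rw [e]; exact k6)
      rcases fin10_cases p with rfl | rfl | rfl | rfl | rfl | rfl | rfl | rfl | rfl | rfl
      · exact D _ _ (by decide) hp k5
      · exact absurd hpt (by decide)
      · exact N _ _ _ (by decide) hA h2 hp
      · exact absurd rfl hpo
      · exact D _ _ (by decide) hp h1
      · exact D _ _ (by decide) hp k5
      · exact absurd hpt (by decide)
      · exact D _ _ (by decide) hp h1
      · exact absurd hpt (by decide)
      · exact D _ _ (by decide) hp h1
    · exact N _ _ _ (by decide) h0 k5 hp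

/-- **Finite core**, facet form. -/
theorem core_facets (Fc : Finset (Fin 10) → Prop)
    (hcard : ∀ A, Fc A → A.card = 4)
    (X1 : ∀ A B, Fc A → Fc B → ¬ Disjoint A B)
    (X2 : ∀ (t : Finset (Fin 10)) (a b o : Fin 10) (C : Finset (Fin 10)), a ∉ t → b ∉ t → a ≠ b →
      o ∈ t → Fc (insert a t) → Fc (insert b t) → Fc C → a ∈ C → b ∈ C → o ∈ C → False)
    (X3 : ∀ (t : Finset (Fin 10)) (o : Fin 10), o ∉ t → Fc (insert o t) →
      ∃ p, p ∉ t ∧ p ≠ o ∧ Fc (insert p t))
    (X4 : ∃ A, Fc A) : False := by
  classical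
  obtain ⟨A, hA⟩ := X4
  have hAc := hcard A hA
  -- the swap colours
  have hb : ∀ a ∈ A, ∃ p, p ∉ A ∧ Fc (insert p (A.erase a)) := by
    intro a ha
    obtain ⟨p, hp1, hp2, hp3⟩ := X3 (A.erase a) a (Finset.notMem_erase a A)
      (by rw [Finset.insert_erase ha]; exact hA)
    refine ⟨p, fun hpA => hp1 (Finset.mem_erase.2 ⟨hp2, hpA⟩), hp3⟩
  choose! b hbA hbF using hb
  have hbinj : ∀ a ∈ A, ∀ a' ∈ A, b a = b a' → a = a' := by
    intro a ha a' ha' hab
    by_contra hne
    -- choose o ∈ A \ {a, a'}
    have h2 : 0 < ((A.erase a).erase a').card := by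
      rw [Finset.card_erase_of_mem (Finset.mem_erase.2 ⟨fun h => hne h.symm, ha'⟩),
        Finset.card_erase_of_mem ha, hAc]
      norm_num
    obtain ⟨o, ho⟩ := Finset.card_pos.1 h2
    rw [Finset.mem_erase, Finset.mem_erase] at ho
    obtain ⟨ho1, ho2, ho3⟩ := ho
    refine X2 (A.erase a) a (b a) o (insert (b a') (A.erase a')) (Finset.notMem_erase a A)
      (fun h => hbA a ha (Finset.mem_of_mem_erase h)) (fun h => hbA a ha (h ▸ ha))
      (Finset.mem_erase.2 ⟨ho2, ho3⟩) (by rw [Finset.insert_erase ha]; exact hA) (hbF a ha)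
      (hbF a' ha') ?_ ?_ ?_
    · exact Finset.mem_insert_of_mem (Finset.mem_erase.2 ⟨hne, ha⟩)
    · rw [hab]; exact Finset.mem_insert_self _ _
    · exact Finset.mem_insert_of_mem (Finset.mem_erase.2 ⟨ho1, ho3⟩)
  -- enumeration of `A`
  let e : Fin 4 ≃ A := (Finset.equivFinOfCardEq hAc).symm
  let f : Fin 10 → Fin 10 := fun i =>
    if h : i.1 < 4 then (e ⟨i.1, h⟩ : Fin 10)
    else if h' : i.1 < 8 then b (e ⟨i.1 - 4, by omega⟩ : Fin 10) else 0
  let s : Finset (Fin 10) := Finset.univ.filter fun i => i.1 < 8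
  have hfs : Set.InjOn f s := by
    intro i hi j hj hij
    have hi8 : i.1 < 8 := by simpa [s] using hi
    have hj8 : j.1 < 8 := by simpa [s] using hj
    by_cases hi4 : i.1 < 4 <;> by_cases hj4 : j.1 < 4
    · have h : (e ⟨i.1, hi4⟩ : Fin 10) = (e ⟨j.1, hj4⟩ : Fin 10) := by
        simpa [f, hi4, hj4] using hij
      have h2 := e.injective (Subtype.ext h)
      exact Fin.ext (by simpa using congrArg Fin.val h2)
    · exfalso
      have h : (e ⟨i.1, hi4⟩ : Fin 10) = b (e ⟨j.1 - 4, by omega⟩ : Fin 10) := by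
        simpa [f, hi4, hj4, hj8] using hij
      exact hbA _ (e ⟨j.1 - 4, by omega⟩).2 (h ▸ (e ⟨i.1, hi4⟩).2)
    · exfalso
      have h : b (e ⟨i.1 - 4, by omega⟩ : Fin 10) = (e ⟨j.1, hj4⟩ : Fin 10) := by
        simpa [f, hi4, hj4, hi8] using hij
      exact hbA _ (e ⟨i.1 - 4, by omega⟩).2 (h.symm ▸ (e ⟨j.1, hj4⟩).2)
    · have h : b (e ⟨i.1 - 4, by omega⟩ : Fin 10) = b (e ⟨j.1 - 4, by omega⟩ : Fin 10) := by
        simpa [f, hi4, hj4, hi8, hj8] using hij
      have h2 := hbinj _ (e ⟨i.1 - 4, by omega⟩).2 _ (e ⟨j.1 - 4, by omega⟩).2 h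
      have h3 := e.injective (Subtype.ext h2)
      have h4 : i.1 - 4 = j.1 - 4 := by simpa using congrArg Fin.val h3
      exact Fin.ext (by omega)
  obtain ⟨g, hg⟩ := Finset.exists_equiv_extend_of_card_eq (α := Fin 10) (β := Fin 10)
    (t := Finset.univ) (by simp) (s := s) (f := f) (Finset.subset_univ _) hfs
  let σ : Fin 10 ≃ Fin 10 := g.trans (Equiv.subtypeUnivEquiv (fun x => Finset.mem_univ x))
  have hσ : ∀ i : Fin 10, i.1 < 8 → σ i = f i := fun i hi => hg i (by simp [s, hi])
  have hσ0 : ∀ i : Fin 10, (h : i.1 < 4) → σ i = (e ⟨i.1, h⟩ : Fin 10) := fun i h => by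
    rw [hσ i (by omega)]; simp [f, h]
  have hσ1 : ∀ i : Fin 10, (h : 4 ≤ i.1) → (h' : i.1 < 8) →
      σ i = b (e ⟨i.1 - 4, by omega⟩ : Fin 10) := fun i h h' => by
    rw [hσ i h']; simp [f, h', Nat.not_lt.2 h]
  have hmap : ∀ (S : Finset (Fin 10)) (x : Fin 10),
      (insert x S).map σ.toEmbedding = insert (σ x) (S.map σ.toEmbedding) := by
    intro S x; rw [Finset.map_insert]; rfl
  -- `A` is the image of `{0,1,2,3}`
  have hAimg : ({0, 1, 2, 3} : Finset (Fin 10)).map σ.toEmbedding = A := by
    apply Finset.eq_of_subset_of_card_le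
    · intro x hx
      obtain ⟨i, hi, rfl⟩ := Finset.mem_map.1 hx
      have hi4 : i.1 < 4 :=
        (by decide : ∀ j : Fin 10, j ∈ ({0, 1, 2, 3} : Finset (Fin 10)) → j.1 < 4) i hi
      show σ i ∈ A
      rw [hσ0 i hi4]; exact (e ⟨i.1, hi4⟩).2
    · rw [Finset.card_map, hAc]; decide
  have herase : ∀ i : Fin 10, i.1 < 4 →
      (({0, 1, 2, 3} : Finset (Fin 10)).erase i).map σ.toEmbedding = A.erase (σ i) := by
    intro i _
    rw [← hAimg, Finset.map_erase]; rfl
  have hunit : ∀ i j : Fin 10, i.1 < 4 → j.1 = i.1 + 4 →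
      Fc ((insert j (({0, 1, 2, 3} : Finset (Fin 10)).erase i)).map σ.toEmbedding) := by
    intro i j hi hj
    rw [hmap, herase i hi, hσ1 j (by omega) (by omega)]
    have h : (⟨j.1 - 4, by omega⟩ : Fin 4) = ⟨i.1, hi⟩ := Fin.ext (by simp; omega)
    rw [h, hσ0 i hi]
    exact hbF _ (e ⟨i.1, hi⟩).2
  have hdisj : ∀ F₁ F₂ : Finset (Fin 10), Disjoint F₁ F₂ →
      Disjoint (F₁.map σ.toEmbedding) (F₂.map σ.toEmbedding) := fun F₁ F₂ h =>
    (Finset.disjoint_map _).2 h
  refine labelled (fun S => Fc (S.map σ.toEmbedding)) ?_ ?_ ?_ ?_ ?_ ?_ ?_ ?_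
  · rintro F₁ F₂ C ⟨x, y, o, hxy, hx2, hy1, hx1, hy2, he, ho, hxC, hyC, hoC⟩ g1 g2 g3
    have e1 : insert x (F₁.erase x) = F₁ := Finset.insert_erase hx1
    have e2 : insert y (F₁.erase x) = F₂ := by rw [he]; exact Finset.insert_erase hy2
    refine X2 ((F₁.erase x).map σ.toEmbedding) (σ x) (σ y) (σ o) (C.map σ.toEmbedding)
      ?_ ?_ (fun h => hxy (σ.injective h)) ?_ ?_ ?_ g3 ?_ ?_ ?_
    · intro h
      obtain ⟨z, hz, hz'⟩ := Finset.mem_map.1 h
      have : z = x := σ.injective hz'
      subst this
      exact Finset.notMem_erase _ _ hz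
    · intro h
      obtain ⟨z, hz, hz'⟩ := Finset.mem_map.1 h
      have : z = y := σ.injective hz'
      subst this
      exact hy1 (Finset.mem_of_mem_erase hz)
    · exact Finset.mem_map.2 ⟨o, ho, rfl⟩
    · rw [← hmap, e1]; exact g1
    · rw [← hmap, e2]; exact g2
    · exact Finset.mem_map.2 ⟨x, hxC, rfl⟩
    · exact Finset.mem_map.2 ⟨y, hyC, rfl⟩
    · exact Finset.mem_map.2 ⟨o, hoC, rfl⟩
  · intro F₁ F₂ h g1 g2
    exact X1 _ _ g1 g2 (hdisj _ _ h)
  · intro t o ho hF
    obtain ⟨p, hp1, hp2, hp3⟩ := X3 (t.map σ.toEmbedding) (σ o)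
      (fun h => by
        obtain ⟨z, hz, hz'⟩ := Finset.mem_map.1 h
        have : z = o := σ.injective hz'
        subst this
        exact ho hz)
      (by rw [← hmap]; exact hF)
    refine ⟨σ.symm p, ?_, ?_, ?_⟩
    · intro h
      exact hp1 (Finset.mem_map.2 ⟨σ.symm p, h, by simp⟩)
    · intro h
      exact hp2 (by rw [← h]; simp)
    · show Fc ((insert (σ.symm p) t).map σ.toEmbedding)
      rw [hmap]; simpa using hp3
  · show Fc (({0, 1, 2, 3} : Finset (Fin 10)).map σ.toEmbedding)
    rw [hAimg]; exact hA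
  · have h := hunit 0 4 (by decide) (by decide)
    have e : (insert 4 (({0, 1, 2, 3} : Finset (Fin 10)).erase 0)) = {1, 2, 3, 4} := by decide
    rwa [e] at h
  · have h := hunit 1 5 (by decide) (by decide)
    have e : (insert 5 (({0, 1, 2, 3} : Finset (Fin 10)).erase 1)) = {0, 2, 3, 5} := by decide
    rwa [e] at h
  · have h := hunit 2 6 (by decide) (by decide)
    have e : (insert 6 (({0, 1, 2, 3} : Finset (Fin 10)).erase 2)) = {0, 1, 3, 6} := by decide
    rwa [e] at h
  · have h := hunit 3 7 (by decide) (by decide)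
    have e : (insert 7 (({0, 1, 2, 3} : Finset (Fin 10)).erase 3)) = {0, 1, 2, 7} := by decide
    rwa [e] at h

/-- **Finite core**, complex form (helper38's hypotheses). `K` is the family of faces. -/
theorem core (K : Finset (Fin 10) → Prop)
    (down : ∀ I J : Finset (Fin 10), I ⊆ J → K J → K I)
    (two : ∀ I : Finset (Fin 10), I.card ≤ 2 → K I)
    (cover : ∀ A B C : Finset (Fin 10), K A → K B → K C → A ∪ B ∪ C ≠ Finset.univ)
    (L5 : ∀ (I : Finset (Fin 10)) (o : Fin 10), I.card = 5 → o ∈ I →
      ∃ T : Finset (Fin 10), T ⊆ I ∧ T.card = 3 ∧ o ∈ T ∧ ¬ K T)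
    (WV : ∀ (t : Finset (Fin 10)) (o : Fin 10), t.card = 3 → o ∉ t → K (insert o t) →
      ∃ p, p ∉ t ∧ p ≠ o ∧ K (insert p t))
    (F : ∃ A : Finset (Fin 10), A.card = 4 ∧ K A) : False := by
  classical
  refine core_facets (fun A => A.card = 4 ∧ K A) (fun A h => h.1) ?_ ?_ ?_ F
  · rintro A B ⟨hA, KA⟩ ⟨hB, KB⟩ hd
    refine cover A B (A ∪ B)ᶜ KA KB (two _ ?_) ?_
    · rw [Finset.card_compl, Finset.card_union_of_disjoint hd, hA, hB]; simp
    · exact Finset.union_compl _
  · rintro t a b o C hat hbt hab hot ⟨ha1, ha2⟩ ⟨hb1, hb2⟩ ⟨hC1, hC2⟩ haC hbC hoC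
    have ht : t.card = 3 := by
      have := Finset.card_insert_of_notMem hat
      omega
    have hoa : o ≠ a := fun h => hat (h ▸ hot)
    have hob : o ≠ b := fun h => hbt (h ▸ hot)
    have hb' : b ∉ insert a t := by
      rw [Finset.mem_insert]; push Not; exact ⟨fun h => hab h.symm, hbt⟩
    obtain ⟨T, hTI, hT3, hoT, hTK⟩ := L5 (insert b (insert a t)) o
      (by rw [Finset.card_insert_of_notMem hb', Finset.card_insert_of_notMem hat, ht])
      (Finset.mem_insert_of_mem (Finset.mem_insert_of_mem hot))
    -- `T` contains `a` and `b`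
    have haT : a ∈ T := by
      by_contra haT
      refine hTK (down T (insert b t) (fun x hx => ?_) hb2)
      have := hTI hx
      rw [Finset.mem_insert, Finset.mem_insert] at this
      rcases this with h | h | h
      · rw [h]; exact Finset.mem_insert_self _ _
      · exact absurd (h ▸ hx) haT
      · exact Finset.mem_insert_of_mem h
    have hbT : b ∈ T := by
      by_contra hbT
      refine hTK (down T (insert a t) (fun x hx => ?_) ha2)
      have := hTI hx
      rw [Finset.mem_insert, Finset.mem_insert] at this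
      rcases this with h | h | h
      · exact absurd (h ▸ hx) hbT
      · rw [h]; exact Finset.mem_insert_self _ _
      · exact Finset.mem_insert_of_mem h
    have hTeq : ({a, b, o} : Finset (Fin 10)) = T := by
      apply Finset.eq_of_subset_of_card_le
      · intro x hx
        rw [Finset.mem_insert, Finset.mem_insert, Finset.mem_singleton] at hx
        rcases hx with h | h | h <;> rw [h] <;> assumption
      · rw [hT3, Finset.card_insert_of_notMem, Finset.card_insert_of_notMem, Finset.card_singleton]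
        · rw [Finset.mem_singleton]; exact fun h => hob h.symm
        · rw [Finset.mem_insert, Finset.mem_singleton]; push Not
          exact ⟨hab, fun h => hoa h.symm⟩
    refine hTK (down T C (fun x hx => ?_) hC2)
    rw [← hTeq, Finset.mem_insert, Finset.mem_insert, Finset.mem_singleton] at hx
    rcases hx with h | h | h <;> rw [h] <;> assumption
  · rintro t o hot ⟨h1, h2⟩
    have ht : t.card = 3 := by
      have := Finset.card_insert_of_notMem hot
      omega
    obtain ⟨p, hp1, hp2, hp3⟩ := WV t o ht hot h2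
    exact ⟨p, hp1, hp2, by rw [Finset.card_insert_of_notMem hp1, ht], hp3⟩

end Vale.Agent.P052.R2.H387
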