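import Vale.Agent.P052.R2.H387.Core

/-!
# P052: the finite core, variant for helper232 (helper387)

Hypotheses `b5` (every 5-set contains a nonface triple) and `o4` (a 4-set never contains
exactly one nonface triple) in place of `L5`.
-/

namespace Vale.Agent.P052.R2.H387

open Finset

theorem core_b5o4 (K : Finset (Fin 10) → Prop)
    (down : ∀ A B : Finset (Fin 10), A ⊆ B → K B → K A)
    (pair : ∀ A : Finset (Fin 10), A.card ≤ 2 → K A)
    (cover : ∀ A B C : Finset (Fin 10), K A → K B → K C → A ∪ B ∪ C ≠ Finset.univ)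
    (b5 : ∀ I : Finset (Fin 10), I.card = 5 → ∃ T : Finset (Fin 10), T ⊆ I ∧ T.card = 3 ∧ ¬ K T)
    (o4 : ∀ I T : Finset (Fin 10), I.card = 4 → T ⊆ I → T.card = 3 → ¬ K T →
      ∃ T' : Finset (Fin 10), T' ⊆ I ∧ T'.card = 3 ∧ T' ≠ T ∧ ¬ K T')
    (wv : ∀ (t : Finset (Fin 10)) (o : Fin 10), t.card = 3 → o ∉ t → K (insert o t) →
      ∃ p, p ∉ t ∧ p ≠ o ∧ K (insert p t))
    (facet : ∃ A : Finset (Fin 10), A.card = 4 ∧ K A) : False := by
  classical
  refine core_facets (fun A => A.card = 4 ∧ K A) (fun A h => h.1) ?_ ?_ ?_ facet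
  · rintro A B ⟨hA, KA⟩ ⟨hB, KB⟩ hd
    refine cover A B (A ∪ B)ᶜ KA KB (pair _ ?_) ?_
    · rw [Finset.card_compl, Finset.card_union_of_disjoint hd, hA, hB]; simp
    · exact Finset.union_compl _
  · rintro t a b o C hat hbt hab hot ⟨ha1, ha2⟩ ⟨hb1, hb2⟩ ⟨hC1, hC2⟩ haC hbC hoC
    have ht : t.card = 3 := by
      have := Finset.card_insert_of_notMem hat
      omega
    have hb' : b ∉ insert a t := by
      rw [Finset.mem_insert]; push Not; exact ⟨fun h => hab h.symm, hbt⟩
    -- a triple of `t + a + b` avoiding `b` or `a` is a face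
    have hmem : ∀ T : Finset (Fin 10), T ⊆ insert b (insert a t) → ¬ K T → a ∈ T ∧ b ∈ T := by
      intro T hTI hTK
      constructor
      · by_contra haT
        refine hTK (down T (insert b t) (fun x hx => ?_) hb2)
        have := hTI hx
        rw [Finset.mem_insert, Finset.mem_insert] at this
        rcases this with h | h | h
        · rw [h]; exact Finset.mem_insert_self _ _
        · exact absurd (h ▸ hx) haT
        · exact Finset.mem_insert_of_mem h
      · by_contra hbT
        refine hTK (down T (insert a t) (fun x hx => ?_) ha2)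
        have := hTI hx
        rw [Finset.mem_insert, Finset.mem_insert] at this
        rcases this with h | h | h
        · exact absurd (h ▸ hx) hbT
        · rw [h]; exact Finset.mem_insert_self _ _
        · exact Finset.mem_insert_of_mem h
    have hform : ∀ T : Finset (Fin 10), T ⊆ insert b (insert a t) → T.card = 3 → ¬ K T →
        ∃ x ∈ t, T = {a, b, x} := by
      intro T hTI hT3 hTK
      obtain ⟨haT, hbT⟩ := hmem T hTI hTK
      have h1 : ((T.erase a).erase b).card = 1 := by
        rw [Finset.card_erase_of_mem (Finset.mem_erase.2 ⟨fun h => hab h.symm, hbT⟩),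
          Finset.card_erase_of_mem haT, hT3]
      obtain ⟨x, hx⟩ := Finset.card_eq_one.1 h1
      have hx' : x ∈ (T.erase a).erase b := by rw [hx]; exact Finset.mem_singleton_self x
      rw [Finset.mem_erase, Finset.mem_erase] at hx'
      refine ⟨x, ?_, ?_⟩
      · have := hTI hx'.2.2
        rw [Finset.mem_insert, Finset.mem_insert] at this
        rcases this with h | h | h
        · exact absurd h hx'.1
        · exact absurd h hx'.2.1
        · exact h
      · rw [← Finset.insert_erase haT, ← Finset.insert_erase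
          (Finset.mem_erase.2 ⟨fun h => hab h.symm, hbT⟩ : b ∈ T.erase a), hx]
    obtain ⟨T, hTI, hT3, hTK⟩ := b5 (insert b (insert a t))
      (by rw [Finset.card_insert_of_notMem hb', Finset.card_insert_of_notMem hat, ht])
    obtain ⟨x, hxt, rfl⟩ := hform T hTI hT3 hTK
    -- it suffices that `{a, b, o}` is a nonface
    suffices h : ¬ K {a, b, o} by
      refine h (down _ C (fun y hy => ?_) hC2)
      rw [Finset.mem_insert, Finset.mem_insert, Finset.mem_singleton] at hy
      rcases hy with h | h | h <;> rw [h] <;> assumption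
    by_cases hxo : o = x
    · rw [hxo]; exact hTK
    -- the 4-set `{a, b, x, o}`
    have hax : a ≠ x := fun h => hat (h ▸ hxt)
    have hbx : b ≠ x := fun h => hbt (h ▸ hxt)
    have hao : a ≠ o := fun h => hat (h ▸ hot)
    have hbo : b ≠ o := fun h => hbt (h ▸ hot)
    have hc4 : (insert o ({a, b, x} : Finset (Fin 10))).card = 4 := by
      rw [Finset.card_insert_of_notMem, hT3]
      rw [Finset.mem_insert, Finset.mem_insert, Finset.mem_singleton]; push Not
      exact ⟨hao.symm, hbo.symm, hxo⟩
    obtain ⟨T', hT'I, hT'3, hT'ne, hT'K⟩ := o4 (insert o {a, b, x}) {a, b, x} hc4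
      (Finset.subset_insert _ _) hT3 hTK
    have hsub : insert o ({a, b, x} : Finset (Fin 10)) ⊆ insert b (insert a t) := by
      intro y hy
      simp only [Finset.mem_insert, Finset.mem_singleton] at hy ⊢
      rcases hy with h | h | h | h
      · exact Or.inr (Or.inr (h ▸ hot))
      · exact Or.inr (Or.inl h)
      · exact Or.inl h
      · exact Or.inr (Or.inr (h ▸ hxt))
    obtain ⟨z, hzt, rfl⟩ := hform T' (hT'I.trans hsub) hT'3 hT'K
    have hz : z ∈ insert o ({a, b, x} : Finset (Fin 10)) := hT'I (by simp)
    simp only [Finset.mem_insert, Finset.mem_singleton] at hz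
    rcases hz with h | h | h | h
    · rw [← h]; exact hT'K
    · exact absurd (h ▸ hzt) hat
    · exact absurd (h ▸ hzt) hbt
    · exact absurd (by rw [h]) hT'ne
  · rintro t o hot ⟨h1, h2⟩
    have ht : t.card = 3 := by
      have := Finset.card_insert_of_notMem hot
      omega
    obtain ⟨p, hp1, hp2, hp3⟩ := wv t o ht hot h2
    exact ⟨p, hp1, hp2, by rw [Finset.card_insert_of_notMem hp1, ht], hp3⟩

end Vale.Agent.P052.R2.H387
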